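import Vale.Agent.P299.H726.Trans
import Mathlib.Analysis.Calculus.BumpFunction.FiniteDimension
import Mathlib.Topology.Compactness.SigmaCompact

/-!
# P299, package D2-BUMP: bump functions escaping to infinity of a noncompact factor
-/

open scoped Manifold ContDiff ComplexOrder Topology
open Vale.Agent.P272.K Vale.Agent.P278.H837 Vale.Agent.P299.D Vale.Agent.P299.H760 Filter Metric Set

set_option maxSynthPendingDepth 3

noncomputable section

namespace Vale.Agent.P299.H726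

/-- A smooth bump function in the chart `e1` -/
def bumpAt {d : ℕ} {Y : Type*} [TopologicalSpace Y] (e1 : Chart d Y) {c : Cm d}
    (φ : ContDiffBump c) (y : Y) : ℝ := by
  classical
  exact if y ∈ e1.source then φ (e1 y) else 0

section bump
variable {d : ℕ} {Y : Type*} [TopologicalSpace Y] {e1 : Chart d Y} {c : Cm d}
  {φ : ContDiffBump c}

theorem bumpAt_nonneg (y : Y) : 0 ≤ bumpAt e1 φ y := by
  unfold bumpAt
  split_ifs
  · exact φ.nonneg
  · exact le_rfl

theorem bumpAt_le (y : Y) : bumpAt e1 φ y ≤ 1 := by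
  unfold bumpAt
  split_ifs
  · exact φ.le_one
  · exact zero_le_one

theorem bumpAt_self {y : Y} (hy : y ∈ e1.source) (hc : e1 y = c) : bumpAt e1 φ y = 1 := by
  unfold bumpAt
  rw [if_pos hy, hc]
  exact φ.one_of_mem_closedBall (mem_closedBall_self φ.rIn_pos.le)

/-- the support -/
def bsupp (e1 : Chart d Y) (φ : ContDiffBump c) : Set Y := e1.symm '' closedBall c φ.rOut

theorem bumpAt_eq_zero {y : Y} (hy : y ∉ bsupp e1 φ) : bumpAt e1 φ y = 0 := by
  unfold bumpAt
  split_ifs with h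
  · refine φ.zero_of_le_dist ?_
    by_contra h2
    exact hy ⟨e1 y, mem_closedBall.2 (not_le.1 h2).le, e1.left_inv h⟩
  · rfl

theorem isCompact_bsupp (hφ : closedBall c φ.rOut ⊆ e1.target) : IsCompact (bsupp e1 φ) :=
  (isCompact_closedBall c φ.rOut).image_of_continuousOn (e1.continuousOn_symm.mono hφ)

theorem bumpAt_eventually_zero [T2Space Y] (hφ : closedBall c φ.rOut ⊆ e1.target) {y : Y}
    (hy : y ∉ bsupp e1 φ) : ∀ᶠ y' in 𝓝 y, bumpAt e1 φ y' = 0 := by
  filter_upwards [(isCompact_bsupp hφ).isClosed.isOpen_compl.mem_nhds hy] with y' hy'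
  exact bumpAt_eq_zero hy'

theorem bumpAt_eventually_eq {y : Y} (hy : y ∈ e1.source) :
    ∀ᶠ y' in 𝓝 y, bumpAt e1 φ y' = φ (e1 y') := by
  filter_upwards [e1.open_source.mem_nhds hy] with y' hy'
  unfold bumpAt
  rw [if_pos hy']

/-- the derivative of the bump function is bounded -/
theorem exists_bump_bound (φ : ContDiffBump c) : ∃ L : ℝ, 0 ≤ L ∧ ∀ x, ‖fderiv ℝ φ x‖ ≤ L := by
  have h1 : Continuous (fderiv ℝ φ) := (φ.contDiff (n := 1)).continuous_fderiv one_ne_zero
  have h2 : HasCompactSupport (fderiv ℝ φ) := φ.hasCompactSupport.fderiv ℝ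
  obtain ⟨L, hL⟩ := h2.exists_bound_of_continuous h1
  exact ⟨L, (norm_nonneg _).trans (hL 0), hL⟩

end bump

section geo
variable {d : ℕ} {Y : Type*} [TopologicalSpace Y] [T2Space Y] [ChartedSpace (Cm d) Y]
  [IsManifold 𝓘(ℂ, Cm d) ω Y] {e1 : Chart d Y} {c : Cm d} {φ : ContDiffBump c}

/-- composition with a holomorphic map is smooth -/
theorem bumpAt_comp_smooth (he1 : e1 ∈ atlas (Cm d) Y) (hφ : closedBall c φ.rOut ⊆ e1.target)
    {k : ℕ} {h : Cm k → Y} {z : Cm k} (hh : ContMDiffAt 𝓘(ℂ, Cm k) 𝓘(ℂ, Cm d) ω h z) :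
    ContDiffAt ℝ ∞ (fun x => bumpAt e1 φ (h x)) z := by
  by_cases hz : h z ∈ e1.source
  · have h1 : (fun x => bumpAt e1 φ (h x)) =ᶠ[𝓝 z] fun x => φ (e1 (h x)) :=
      hh.continuousAt.eventually (bumpAt_eventually_eq hz)
    refine ContDiffAt.congr_of_eventuallyEq ?_ h1
    have h2 : ContDiffAt ℂ ω (fun x => e1 (h x)) z := by
      rw [← contMDiffAt_iff_contDiffAt]
      exact ContMDiffAt.comp z (g := e1) (chart_contMDiffAt ⟨he1, hz⟩) hh
    have h3 : ContDiffAt ℝ ∞ (fun x => e1 (h x)) z := (h2.restrict_scalars ℝ).of_le (by simp)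
    exact ContDiffAt.comp z (g := φ) φ.contDiffAt h3
  · have h1 : (fun x => bumpAt e1 φ (h x)) =ᶠ[𝓝 z] fun _ => 0 := by
      refine hh.continuousAt.eventually (bumpAt_eventually_zero hφ ?_)
      rintro ⟨y, hy, hy'⟩
      exact hz (by rw [← hy']; exact e1.map_target (hφ hy))
    exact contDiffAt_const.congr_of_eventuallyEq h1

/-- the derivative is controlled by the pull back of the metric -/
theorem exists_deriv_bound {w : FormM d Y} (hw : IsHermitian w) (he1 : e1 ∈ atlas (Cm d) Y)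
    (hφ : closedBall c φ.rOut ⊆ e1.target) : ∃ C : ℝ, 0 ≤ C ∧
    ∀ (k : ℕ) (N : Type) [TopologicalSpace N] [ChartedSpace (Cm k) N] [IsManifold 𝓘(ℂ, Cm k) ω N]
      (h : N → Y) (q : N) (e : Chart k N), At e q →
      ContMDiffAt 𝓘(ℂ, Cm k) 𝓘(ℂ, Cm d) ω h q → ∀ u : Cm k,
      ‖fderiv ℝ (fun x => bumpAt e1 φ (h (e.symm x))) (e q) u‖ ^ 2 ≤
        C * (quad (pullM h w e (e q)) u).re := by
  obtain ⟨L, hL0, hL⟩ := exists_bump_bound φ
  obtain ⟨C, hC0, hC⟩ := exists_quad_lower (isCompact_closedBall c φ.rOut) (fun z => w e1 z)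
    (fun _ => 1) (fun i j => (hw.continuousOn_entry he1 i j).mono hφ)
    (fun i j => continuousOn_const) (fun z hz => hw.posDef_target he1 (hφ hz))
  refine ⟨L ^ 2 * C, by positivity, ?_⟩
  intro k N _ _ _ h q e he hh u
  have hnn : 0 ≤ (quad (pullM h w e (e q)) u).re := by
    rw [pullM_at he.2, quad_pull]
    exact quad_nonneg (hw.posDef _ _ (at_chartAt _)).posSemidef _
  have hcm : ContMDiffAt 𝓘(ℂ, Cm k) 𝓘(ℂ, Cm d) ω (fun x => h (e.symm x)) (e q) := by
    refine ContMDiffAt.comp (e q) (g := h) ?_ (chart_symm_contMDiffAt he.1 he.mem_target)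
    rw [he.left_inv]; exact hh
  by_cases hz : h q ∈ bsupp e1 φ
  · obtain ⟨y, hy, hy'⟩ := hz
    have hys : h q ∈ e1.source := by rw [← hy']; exact e1.map_target (hφ hy)
    have hey : e1 (h q) = y := by rw [← hy', e1.right_inv (hφ hy)]
    have hAt1 : At e1 (h q) := ⟨he1, hys⟩
    have hev : (fun x => bumpAt e1 φ (h (e.symm x))) =ᶠ[𝓝 (e q)] fun x => φ (e1 (h (e.symm x))) := by
      refine hcm.continuousAt.eventually (bumpAt_eventually_eq ?_)
      show h (e.symm (e q)) ∈ e1.source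
      rw [he.left_inv]; exact hys
    have hd := (hol_chart hh he hAt1).differentiableAt (by simp : (ω : WithTop ℕ∞) ≠ 0)
    have hpull : pullM h w e (e q) = _ := pullM_eq hw.isForm he.2 hAt1 hh.continuousAt hd
    have hfd : fderiv ℝ (fun x => bumpAt e1 φ (h (e.symm x))) (e q) u =
        fderiv ℝ φ (e1 (h q)) ((jacF h e e1 q).mulVec u) := by
      rw [hev.fderiv_eq]
      have h4 : DifferentiableAt ℝ φ (e1 (h (e.symm (e q)))) :=
        (φ.contDiffAt (n := 1)).differentiableAt (by simp)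
      rw [show (fun x => φ (e1 (h (e.symm x)))) = φ ∘ (fun x => e1 (h (e.symm x))) from rfl,
        fderiv_comp (e q) h4 (hd.restrictScalars ℝ), ContinuousLinearMap.comp_apply,
        fderivR_holo hd, jacF_mulVec hd, he.left_inv]
    rw [hfd, hpull, quad_pull]
    set v := (jacF h e e1 q).mulVec u
    have h5 := hC (e1 (h q)) (by rw [hey]; exact hy) v
    calc ‖fderiv ℝ φ (e1 (h q)) v‖ ^ 2 ≤ (L * ‖v‖) ^ 2 := by
          gcongr
          exact (ContinuousLinearMap.le_opNorm _ _).trans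
            (mul_le_mul_of_nonneg_right (hL _) (norm_nonneg _))
      _ = L ^ 2 * ‖v‖ ^ 2 := by ring
      _ ≤ L ^ 2 * (C * (quad (w e1 (e1 (h q))) v).re) := by
          gcongr
          exact (norm_sq_le_quad_one v).trans h5
      _ = L ^ 2 * C * (quad (w e1 (e1 (h q))) v).re := by ring
  · have hev : (fun x => bumpAt e1 φ (h (e.symm x))) =ᶠ[𝓝 (e q)] fun _ => 0 := by
      refine hcm.continuousAt.eventually (bumpAt_eventually_zero hφ ?_)
      show h (e.symm (e q)) ∉ bsupp e1 φ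
      rw [he.left_inv]; exact hz
    rw [hev.fderiv_eq, fderiv_fun_const]
    simp only [Pi.zero_apply, zero_apply, norm_zero]
    rw [zero_pow two_ne_zero]
    positivity

end geo

section bs
variable {n : ℕ} {X : Type} [TopologicalSpace X] [ChartedSpace (Cm n) X]
  {w : FormM n X}

/-- one bump function -/
theorem bump_C1b {S : Split n X w} {P : PS n S.M (Deck S.π)} (hC : Compat S P)
    (i₀ : Fin 3) {e1 : Chart (S.d i₀) (S.Y i₀)}
    (he1 : e1 ∈ atlas (Cm (S.d i₀)) (S.Y i₀)) {c : Cm (S.d i₀)} {φ : ContDiffBump c}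
    (hφ : closedBall c φ.rOut ⊆ e1.target) :
    P.Sm (fun m => bumpAt e1 φ (S.Φ m i₀)) ∧ ∃ B, P.C1b 1 B (fun m => bumpAt e1 φ (S.Φ m i₀)) := by
  classical
  choose e he hsub hfun hsymm hg using hC.atl
  have htar : ∀ i, ∀ z ∈ (P.e i).target, z ∈ (e i).target := by
    intro i z hz
    have h1 := (P.e i).map_target hz
    have h2 := (P.e i).right_inv hz
    rw [hfun] at h2
    rw [← h2]
    exact (e i).map_source (hsub i h1)
  let h : Deck S.π → S.M → S.Y i₀ := fun γ x => S.ρ i₀ γ⁻¹ (S.Φ x i₀)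
  have hh : ∀ γ, ContMDiff 𝓘(ℂ, Cm n) 𝓘(ℂ, Cm (S.d i₀)) ω (h γ) := fun γ =>
    (S.ρ_hol i₀ γ⁻¹).comp (S.Φ_hol i₀)
  have hloc : ∀ i γ, P.loc i γ (fun m => bumpAt e1 φ (S.Φ m i₀)) =
      fun z => bumpAt e1 φ (h γ ((e i).symm z)) := by
    intro i γ
    funext z
    show bumpAt e1 φ (S.Φ (P.ac γ⁻¹ ((P.e i).symm z)) i₀) = _
    rw [hC.act, S.equiv, hsymm]
  refine ⟨fun i γ z hz => ?_, ?_⟩
  · rw [hloc]
    refine bumpAt_comp_smooth he1 hφ ?_
    exact ContMDiffAt.comp z (g := h γ) (hh γ).contMDiffAt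
      (chart_symm_contMDiffAt (he i) (htar i z hz))
  · obtain ⟨D, hD0, hD⟩ := exists_deriv_bound (w := S.wY i₀) (S.kahY i₀).toIsHermitian he1 hφ
    have hCi : ∀ i, ∃ C : ℝ, 0 < C ∧ ∀ z ∈ closedBall (P.c i) (4 * P.r i), ∀ ξ : Cm n,
        (quad (P.g i z) ξ).re ≤ C * (quad (1 : Matrix (Fin n) (Fin n) ℂ) ξ).re := fun i =>
      exists_quad_lower (isCompact_closedBall _ _) (fun _ => 1) (fun z => P.g i z)
        (fun p q => continuousOn_const)
        (fun p q z hz => ((P.g_smooth i z (P.ball_sub i hz) p q).continuousAt).continuousWithinAt)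
        (fun z hz => Matrix.PosDef.one)
    choose C hC0 hCb using hCi
    refine ⟨∑ i, Real.sqrt (D * (C i * n)), fun m => ?_, fun i γ z hz => ?_⟩
    · rw [abs_of_nonneg (bumpAt_nonneg _)]
      exact bumpAt_le _
    · refine le_trans ?_ (Finset.single_le_sum (f := fun i => Real.sqrt (D * (C i * n)))
        (fun i _ => Real.sqrt_nonneg _) (Finset.mem_univ i))
      refine ContinuousLinearMap.opNorm_le_bound _ (Real.sqrt_nonneg _) fun u => ?_
      have hz' : z ∈ (P.e i).target := P.ball_sub i hz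
      have hzt := htar i z hz'
      have hAt : At (e i) ((e i).symm z) := At.of_target (he i) hzt
      have hez : e i ((e i).symm z) = z := (e i).right_inv hzt
      have h1 := hD n S.M (h γ) _ (e i) hAt (hh γ).contMDiffAt u
      rw [hloc]
      rw [(holIso_ρ S i₀ γ⁻¹).pull (S.Φ_hol i₀).contMDiffAt hAt] at h1
      have h2 : (quad (pullM (fun m => S.Φ m i₀) (S.wY i₀) (e i) (e i ((e i).symm z))) u).re ≤
          (quad (P.g i z) u).re := by
        rw [hg i z hz']
        have h3 := S.prod (e i) _ hAt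
        rw [hez] at h3 ⊢
        rw [h3, quad_sum, Complex.re_sum]
        refine Finset.single_le_sum (f := fun k => (quad (pullM (fun m => S.Φ m k) (S.wY k)
          (e i) z) u).re) (fun k _ => ?_) (Finset.mem_univ i₀)
        have h4 : pullM (fun m => S.Φ m k) (S.wY k) (e i) z =
            pullM (fun m => S.Φ m k) (S.wY k) (e i) (e i ((e i).symm z)) := by rw [hez]
        rw [h4, pullM_at hAt.2, quad_pull]
        exact quad_nonneg ((S.kahY k).toIsHermitian.posDef _ _ (at_chartAt _)).posSemidef _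
      have h5 : ‖fderiv ℝ (fun z => bumpAt e1 φ (h γ ((e i).symm z))) z u‖ ^ 2 ≤
          D * (C i * n) * ‖u‖ ^ 2 := by
        rw [hez] at h1 h2
        calc _ ≤ D * (quad (pullM (fun m => S.Φ m i₀) (S.wY i₀) (e i) z) u).re := h1
          _ ≤ D * (C i * (n * ‖u‖ ^ 2)) := by
            refine mul_le_mul_of_nonneg_left (h2.trans ((hCb i z hz u).trans ?_)) hD0
            exact mul_le_mul_of_nonneg_left (quad_one_le u) (hC0 i).le
          _ = _ := by ring
      have h6 := Real.le_sqrt_of_sq_le h5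
      rwa [Real.sqrt_mul (mul_nonneg hD0 (mul_nonneg (hC0 i).le (Nat.cast_nonneg n))),
        Real.sqrt_sq (norm_nonneg u)] at h6

end bs

/-- **BUMP** -/
theorem bump : BumpStatement := by
  intro n X _ _ _ _ _ _ w hw S P hC i₀ hi₀ hnc
  classical
  have hlc : LocallyCompactSpace (S.Y i₀) := ChartedSpace.locallyCompactSpace (Cm (S.d i₀)) (S.Y i₀)
  have hsc : SigmaCompactSpace (S.Y i₀) := inferInstance
  let K : CompactExhaustion (S.Y i₀) := default
  have hex : ∀ k, ∃ y : S.Y i₀, y ∉ K k := by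
    intro k
    by_contra hcon
    push Not at hcon
    refine hnc ⟨?_⟩
    have : (Set.univ : Set (S.Y i₀)) = K k := by
      ext y; simp [hcon y]
    rw [this]
    exact K.isCompact k
  choose y hy using hex
  have hφ : ∀ k, ∃ φ : ContDiffBump (chartAt (Cm (S.d i₀)) (y k) (y k)),
      closedBall (chartAt (Cm (S.d i₀)) (y k) (y k)) φ.rOut ⊆
        (chartAt (Cm (S.d i₀)) (y k)).target ∧
      ∀ x ∈ bsupp (chartAt (Cm (S.d i₀)) (y k)) φ, x ∉ K k := by
    intro k
    set e1 := chartAt (Cm (S.d i₀)) (y k) with he1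
    have hs : y k ∈ e1.source := mem_chart_source _ _
    have h1 : e1.target ∩ e1.symm ⁻¹' (K k : Set (S.Y i₀))ᶜ ∈ 𝓝 (e1 (y k)) := by
      refine inter_mem (e1.open_target.mem_nhds (e1.map_source hs)) ?_
      refine (e1.continuousAt_symm (e1.map_source hs)).preimage_mem_nhds ?_
      rw [e1.left_inv hs]
      exact (K.isCompact k).isClosed.isOpen_compl.mem_nhds (hy k)
    obtain ⟨ε, hε, hε'⟩ := Metric.nhds_basis_closedBall.mem_iff.1 h1
    refine ⟨⟨ε / 2, ε, by positivity, by linarith⟩, fun z hz => (hε' hz).1, ?_⟩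
    rintro x ⟨z, hz, rfl⟩
    exact (hε' hz).2
  choose φ hφt hφK using hφ
  refine ⟨fun k m => bumpAt (chartAt (Cm (S.d i₀)) (y k)) (φ k) (S.Φ m i₀), fun k => ?_,
    fun k => ?_, fun k m => bumpAt_nonneg _, fun k => ?_, fun k m m' hmm => ?_, fun m => ?_⟩
  · exact (bump_C1b hC i₀ (chart_mem_atlas _ _) (hφt k)).1
  · exact ⟨1, (bump_C1b hC i₀ (chart_mem_atlas _ _) (hφt k)).2⟩
  · obtain ⟨m0⟩ : Nonempty S.M := inferInstance
    refine ⟨S.Φ.symm (Function.update (S.Φ m0) i₀ (y k)), ?_⟩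
    show 0 < bumpAt (chartAt (Cm (S.d i₀)) (y k)) (φ k)
      (S.Φ (S.Φ.symm (Function.update (S.Φ m0) i₀ (y k))) i₀)
    rw [S.Φ.apply_symm_apply, Function.update_self,
      bumpAt_self (mem_chart_source _ _) rfl]
    exact one_pos
  · show bumpAt _ _ (S.Φ m i₀) = bumpAt _ _ (S.Φ m' i₀)
    rw [hmm i₀ hi₀]
  · obtain ⟨N, hN⟩ := K.exists_mem (S.Φ m i₀)
    refine ⟨(fun m' => S.Φ m' i₀) ⁻¹' interior (K (N + 1)), ?_, ?_⟩
    · have hc : ContinuousAt (fun m' => S.Φ m' i₀) m := (S.Φ_hol i₀).continuous.continuousAt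
      exact hc.preimage_mem_nhds (isOpen_interior.mem_nhds (K.subset_interior_succ N hN))
    · filter_upwards [eventually_ge_atTop (N + 1)] with k hk m' hm'
      refine bumpAt_eq_zero fun h => hφK k _ h ?_
      exact K.subset hk (interior_subset hm')

end Vale.Agent.P299.H726
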