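import Vale.Agent.P299.H726.Pull

/-!
# P299, package D2-TRANS: the translations of `Y 0` are holomorphic isometries of `M`
-/

open scoped Manifold ContDiff ComplexOrder Topology
open Vale.Agent.P272.K Vale.Agent.P278.H837 Vale.Agent.P299.D Vale.Agent.P299.H760 Filter Metric Set

set_option maxSynthPendingDepth 3

noncomputable section

namespace Vale.Agent.P299.H726

section iso
variable {d : ℕ} {Y : Type*} [TopologicalSpace Y] [ChartedSpace (Cm d) Y]

theorem at_chartAt (y : Y) : At (chartAt (Cm d) y) y := ⟨chart_mem_atlas _ _, mem_chart_source _ _⟩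

/-- holomorphic maps preserving the form `w` -/
structure HolIso (w : FormM d Y) (σ : Y → Y) : Prop where
  hol : ContMDiff 𝓘(ℂ, Cm d) 𝓘(ℂ, Cm d) ω σ
  iso : ∀ (e : Chart d Y) y, At e y → pullM σ w e (e y) = w e (e y)

variable {w : FormM d Y} [IsManifold 𝓘(ℂ, Cm d) ω Y]

/-- pull back by `σ ∘ f`, `σ` an isometry -/
theorem HolIso.pull {σ : Y → Y} (hσ : HolIso w σ) {a : ℕ} {N : Type*} [TopologicalSpace N]
    [ChartedSpace (Cm a) N] [IsManifold 𝓘(ℂ, Cm a) ω N] {f : N → Y} {q : N}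
    (hf : ContMDiffAt 𝓘(ℂ, Cm a) 𝓘(ℂ, Cm d) ω f q) {e : Chart a N} (he : At e q) :
    pullM (fun x => σ (f x)) w e (e q) = pullM f w e (e q) := by
  rw [pullM_comp (f := f) (g := σ) (e1 := chartAt (Cm d) (f q)) he.2 (mem_chart_source _ _)
    hf.continuousAt ((hol_chart hf he (at_chartAt _)).differentiableAt (by simp))
    ((hol_chart hσ.hol.contMDiffAt (at_chartAt _) (at_chartAt _)).differentiableAt (by simp)),
    hσ.iso _ _ (at_chartAt _), pullM_at he.2]

theorem HolIso.comp {σ τ : Y → Y} (hσ : HolIso w σ) (hτ : HolIso w τ) :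
    HolIso w (fun y => σ (τ y)) where
  hol := hσ.hol.comp hτ.hol
  iso e y he := by rw [hσ.pull hτ.hol.contMDiffAt he, hτ.iso e y he]

omit [IsManifold 𝓘(ℂ, Cm d) ω Y] in
theorem HolIso.id (hw : IsForm w) : HolIso w (fun y => y) where
  hol := contMDiff_id
  iso e y he := by
    rw [pullM_at he.2]
    exact (hw e (chartAt (Cm d) y) y he (at_chartAt y)).symm

end iso

section geo
variable {n : ℕ} {X : Type} [TopologicalSpace X] [ChartedSpace (Cm n) X]
  {w : FormM n X}

theorem holIso_ρ (S : Split n X w) (i : Fin 3) (γ : Deck S.π) : HolIso (S.wY i) (S.ρ i γ) :=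
  ⟨S.ρ_hol i γ, S.ρ_iso i γ⟩

/-- fibrewise isometries are isometries -/
theorem isIso_of {S : Split n X w} {P : PS n S.M (Deck S.π)} (hC : Compat S P) {T : S.M → S.M}
    (hT : Continuous T) (h : ∀ k, ∃ σ : S.Y k → S.Y k, HolIso (S.wY k) σ ∧
      ∀ p, S.Φ (T p) k = σ (S.Φ p k)) : P.IsIso T := by
  refine ⟨hT, fun i j γ δ m hi hj => ?_⟩
  obtain ⟨e, he, hsub, hfun, hsymm, hg⟩ := hC.atl i
  obtain ⟨e2, he2, hsub2, hfun2, hsymm2, hg2⟩ := hC.atl j
  choose σ hσ hσT using h
  set q := P.ac γ m with hq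
  let F : S.M → S.M := fun x => P.ac δ (T (P.ac γ⁻¹ x))
  have hFq : F q = P.ac δ (T m) := by
    show P.ac δ (T (P.ac γ⁻¹ (P.ac γ m))) = _
    rw [← P.ac_mul, inv_mul_cancel, P.ac_one]
  have hAt : At e q := ⟨he, hsub hi⟩
  have hAt2 : At e2 (F q) := ⟨he2, hsub2 (by rw [hFq]; exact hj)⟩
  have hFc : Continuous F := (P.ac δ).continuous.comp (hT.comp (P.ac γ⁻¹).continuous)
  let s : (k : Fin 3) → S.Y k → S.Y k := fun k y => S.ρ k δ (σ k (S.ρ k γ⁻¹ y))
  have hs : ∀ k, HolIso (S.wY k) (s k) := fun k =>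
    (holIso_ρ S k δ).comp ((hσ k).comp (holIso_ρ S k γ⁻¹))
  have hsF : ∀ k x, S.Φ (F x) k = s k (S.Φ x k) := by
    intro k x
    show S.Φ (P.ac δ (T (P.ac γ⁻¹ x))) k = _
    rw [hC.act, S.equiv, hσT, hC.act, S.equiv]
  have hloc : (fun z => P.e j (P.ac δ (T (P.ac γ⁻¹ ((P.e i).symm z))))) =
      fun z => e2 (F (e.symm z)) := by
    funext z
    rw [hfun2, hsymm]
  have hz : P.e i q = e q := hfun q
  have hhol : ContDiffAt ℂ ω (fun z => e2 (F (e.symm z))) (e q) := by
    refine hol_into S (f := fun z => F (e.symm z)) ?_ (fun k => ?_) ?_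
    · exact hFc.continuousAt.comp (e.continuousAt_symm hAt.mem_target)
    · have h1 : ContMDiffAt 𝓘(ℂ, Cm n) 𝓘(ℂ, Cm (S.d k)) ω
          (fun z => s k (S.Φ (e.symm z) k)) (e q) := by
        have h2 : ContMDiff 𝓘(ℂ, Cm n) 𝓘(ℂ, Cm (S.d k)) ω (fun x => s k (S.Φ x k)) :=
          (hs k).hol.comp (S.Φ_hol k)
        exact ContMDiffAt.comp (e q) (g := fun x => s k (S.Φ x k)) h2.contMDiffAt
          (chart_symm_contMDiffAt hAt.1 hAt.mem_target)
      have h3 : (fun z => S.Φ (F (e.symm z)) k) = fun z => s k (S.Φ (e.symm z) k) := by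
        funext z; rw [hsF]
      rw [h3]; exact h1
    · show At e2 (F (e.symm (e q)))
      rw [hAt.left_inv]; exact hAt2
  rw [hloc, hz]
  refine ⟨hhol, ?_⟩
  have hJ : jmat (fun z => e2 (F (e.symm z))) (e q) = jacF F e e2 q := rfl
  rw [hJ, ← hFq, ← hz, hg _ ((P.e i).map_source hi), hfun2, hz]
  have hj' : F q ∈ (P.e j).source := by rw [hFq]; exact hj
  have h5 : P.g j (e2 (F q)) = pullM S.π w e2 (e2 (F q)) := by
    have := hg2 _ ((P.e j).map_source hj')
    rwa [hfun2] at this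
  rw [h5, S.prod e q hAt, S.prod e2 (F q) hAt2, Matrix.mul_sum, Matrix.sum_mul]
  refine Finset.sum_congr rfl fun k _ => ?_
  have h6 : pullM (fun m => S.Φ (F m) k) (S.wY k) e (e q) =
      (jacF F e e2 q).transpose * pullM (fun m => S.Φ m k) (S.wY k) e2 (e2 (F q)) *
        (jacF F e e2 q).map (starRingEnd ℂ) :=
    pullM_comp (f := F) (g := fun m => S.Φ m k) hAt.2 hAt2.2 hFc.continuousAt
      (hhol.differentiableAt (by simp))
      ((hol_chart (S.Φ_hol k).contMDiffAt hAt2 (at_chartAt _)).differentiableAt (by simp))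
  rw [← h6]
  have h7 : (fun m => S.Φ (F m) k) = fun m => s k (S.Φ m k) := by
    funext x; rw [hsF]
  rw [h7, (hs k).pull (S.Φ_hol k).contMDiffAt hAt]

/-- the translations of `Y 0` -/
def tr (S : Split n X w) (a : Cm (S.d 0)) (y : S.Y 0) : S.Y 0 := S.dev.symm (S.dev y + a)

theorem holIso_tr (S : Split n X w) (a : Cm (S.d 0)) : HolIso (S.wY 0) (tr S a) := by
  have hadd : ContMDiff 𝓘(ℂ, Cm (S.d 0)) 𝓘(ℂ, Cm (S.d 0)) ω (fun y => S.dev y + a) :=
    S.dev_hol.add contMDiff_const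
  have hhol : ContMDiff 𝓘(ℂ, Cm (S.d 0)) 𝓘(ℂ, Cm (S.d 0)) ω (tr S a) :=
    S.dev_symm_hol.comp hadd
  refine ⟨hhol, fun e y he => ?_⟩
  rw [pullM_at he.2, S.dev_iso _ _ (at_chartAt (tr S a y)), S.dev_iso e y he]
  have h1 : pullM (fun x => S.dev (tr S a x)) (stdM (S.d 0)) e (e y) = _ :=
    pullM_comp (w := stdM (S.d 0)) (f := tr S a) (g := S.dev)
      (e1 := chartAt (Cm (S.d 0)) (tr S a y)) he.2
      (mem_chart_source _ _) hhol.continuous.continuousAt
      ((hol_chart hhol.contMDiffAt he (at_chartAt _)).differentiableAt (by simp))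
      ((hol_chart S.dev_hol.contMDiffAt (at_chartAt _) (at_chartAt _)).differentiableAt (by simp))
  rw [← h1]
  have h2 : (fun x => S.dev (tr S a x)) = fun x => S.dev x + a := by
    funext x
    show S.dev (S.dev.symm (S.dev x + a)) = _
    rw [S.dev.apply_symm_apply]
  rw [h2, pullM_at he.2, pullM_at he.2]
  have h3 : jacF (fun x => S.dev x + a) e (chartAt (Cm (S.d 0)) (S.dev y + a)) y =
      jacF S.dev e (chartAt (Cm (S.d 0)) (S.dev y)) y := by
    ext p i
    simp only [jacF, Matrix.of_apply, chartAt_self_eq, OpenPartialHomeomorph.refl_apply]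
    show dz i (fun z => S.dev (e.symm z) p + a p) (e y) = dz i (fun z => S.dev (e.symm z) p) (e y)
    have h4 : DifferentiableAt ℝ (fun z => S.dev (e.symm z) p) (e y) := by
      have := (hol_chart S.dev_hol.contMDiffAt he (at_chartAt (S.dev y))).differentiableAt
        (by simp : (ω : WithTop ℕ∞) ≠ 0)
      have h5 := (differentiableAt_pi.1 this p).restrictScalars ℝ
      simp only [chartAt_self_eq, OpenPartialHomeomorph.refl_apply] at h5
      exact h5
    rw [dz_add h4 (differentiableAt_const _), dz_const, add_zero]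
  rw [h3]
  rfl

end geo

/-- **TRANS** -/
theorem trans : TransStatement := by
  intro n X _ _ _ _ _ _ w hw S P hC m m' hmm
  set a := S.dev (S.Φ m' 0) - S.dev (S.Φ m 0) with ha
  let T : S.M → S.M := fun p => S.Φ.symm (Function.update (S.Φ p) 0 (tr S a (S.Φ p 0)))
  have hΦT : ∀ p, S.Φ (T p) = Function.update (S.Φ p) 0 (tr S a (S.Φ p 0)) := fun p =>
    S.Φ.apply_symm_apply _
  refine ⟨T, isIso_of hC ?_ (fun k => ?_), ?_, ?_⟩
  · refine S.Φ.symm.continuous.comp ?_
    refine S.Φ.continuous.update 0 ?_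
    exact (holIso_tr S a).hol.continuous.comp ((continuous_apply 0).comp S.Φ.continuous)
  · by_cases hk : k = 0
    · subst hk
      refine ⟨tr S a, holIso_tr S a, fun p => ?_⟩
      rw [hΦT, Function.update_self]
    · refine ⟨fun y => y, HolIso.id (S.kahY k).toIsHermitian.isForm, fun p => ?_⟩
      rw [hΦT, Function.update_of_ne hk]
  · apply S.Φ.injective
    rw [hΦT]
    funext i
    by_cases hi : i = 0
    · subst hi
      rw [Function.update_self]
      show S.dev.symm (S.dev (S.Φ m 0) + a) = _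
      rw [ha, add_sub_cancel, S.dev.symm_apply_apply]
    · rw [Function.update_of_ne hi]
      exact hmm i hi
  · intro p i hi
    rw [hΦT, Function.update_of_ne hi]

end Vale.Agent.P299.H726
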