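import Vale.Agent.P299.H760.Iface
import Vale.Agent.P272.K.Inv.Consts
import Mathlib.Analysis.Calculus.InverseFunctionTheorem.ContDiff

/-!
# P299, package D2: calculus of `jacF`, `pullM` (chain rule), holomorphic maps into `M`
-/

open scoped Manifold ContDiff ComplexOrder Topology
open Vale.Agent.P272.K Vale.Agent.P278.H837 Vale.Agent.P299.D Filter Metric Set

set_option maxSynthPendingDepth 3

noncomputable section

namespace Vale.Agent.P299.H726

section jac
variable {a b c : ℕ} {N N' X : Type*} [TopologicalSpace N] [TopologicalSpace N']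
  [TopologicalSpace X]

/-- real derivative of a holomorphic map -/
theorem fderivR_holo {E F : Type*} [NormedAddCommGroup E] [NormedSpace ℂ E] [NormedAddCommGroup F]
    [NormedSpace ℂ F] {τ : E → F} {z : E} (h : DifferentiableAt ℂ τ z) (v : E) :
    fderiv ℝ τ z v = fderiv ℂ τ z v := by
  rw [h.fderiv_restrictScalars ℝ]; rfl

theorem jacF_apply {f : N → X} {e : Chart a N} {e' : Chart b X} {q : N}
    (h : DifferentiableAt ℂ (fun z => e' (f (e.symm z))) (e q)) (p : Fin b) (i : Fin a) :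
    jacF f e e' q p i = fderiv ℂ (fun z => e' (f (e.symm z))) (e q) (Pi.single i 1) p := by
  unfold jacF
  have h1 : DifferentiableAt ℂ (fun z => e' (f (e.symm z)) p) (e q) := (differentiableAt_pi.1 h) p
  rw [Matrix.of_apply, dz_of_holo h1]
  have h2 : HasFDerivAt (fun z => e' (f (e.symm z)) p)
      ((ContinuousLinearMap.proj p).comp (fderiv ℂ (fun z => e' (f (e.symm z))) (e q))) (e q) :=
    (ContinuousLinearMap.proj (R := ℂ) (φ := fun _ : Fin b => ℂ) p).hasFDerivAt.comp (e q)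
      h.hasFDerivAt
  rw [h2.fderiv]
  rfl

theorem jacF_mulVec {f : N → X} {e : Chart a N} {e' : Chart b X} {q : N}
    (h : DifferentiableAt ℂ (fun z => e' (f (e.symm z))) (e q)) (u : Cm a) :
    (jacF f e e' q).mulVec u = fderiv ℂ (fun z => e' (f (e.symm z))) (e q) u := by
  have hv : u = ∑ i, (u i) • (Pi.single i (1 : ℂ) : Cm a) := by
    funext j
    simp only [Finset.sum_apply, Pi.smul_apply]
    rw [Finset.sum_eq_single j]
    · simp
    · intro b _ hb; simp [hb.symm]
    · simp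
  funext p
  conv_rhs => rw [hv]
  rw [map_sum, Finset.sum_apply]
  simp only [Matrix.mulVec, dotProduct]
  refine Finset.sum_congr rfl fun i _ => ?_
  rw [map_smul, Pi.smul_apply, jacF_apply h, smul_eq_mul, mul_comm]

theorem matrix_ext_mulVec {A B : Matrix (Fin b) (Fin a) ℂ} (h : ∀ u, A.mulVec u = B.mulVec u) :
    A = B := by
  ext p i
  have := congrFun (h (Pi.single i 1)) p
  simpa using this

theorem jacF_congr {f g : N → X} {e : Chart a N} {e' : Chart b X} {q : N} (hq : q ∈ e.source)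
    (h : f =ᶠ[𝓝 q] g) : jacF f e e' q = jacF g e e' q := by
  ext p i
  unfold jacF
  rw [Matrix.of_apply, Matrix.of_apply]
  refine dz_congr ?_
  have h1 : ∀ᶠ z in 𝓝 (e q), f (e.symm z) = g (e.symm z) := by
    have := (e.continuousAt_symm (e.map_source hq))
    rw [ContinuousAt, e.left_inv hq] at this
    exact this.eventually h
  filter_upwards [h1] with z hz
  rw [hz]

/-- chain rule -/
theorem jacF_comp {f : N → N'} {g : N' → X} {e : Chart a N} {e1 : Chart b N'} {e2 : Chart c X}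
    {q : N} (hq : q ∈ e.source) (hfq : f q ∈ e1.source) (hfc : ContinuousAt f q)
    (hf : DifferentiableAt ℂ (fun z => e1 (f (e.symm z))) (e q))
    (hg : DifferentiableAt ℂ (fun z => e2 (g (e1.symm z))) (e1 (f q))) :
    jacF (fun x => g (f x)) e e2 q = jacF g e1 e2 (f q) * jacF f e e1 q ∧
      DifferentiableAt ℂ (fun z => e2 (g (f (e.symm z)))) (e q) := by
  have hfq' : e1 (f (e.symm (e q))) = e1 (f q) := by rw [e.left_inv hq]
  have h1 : (fun z => e2 (g (f (e.symm z)))) =ᶠ[𝓝 (e q)]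
      fun z => (fun y => e2 (g (e1.symm y))) ((fun z => e1 (f (e.symm z))) z) := by
    have h2 : ContinuousAt (fun z => f (e.symm z)) (e q) := by
      have h3 := e.continuousAt_symm (e.map_source hq)
      refine ContinuousAt.comp (f := e.symm) (g := f) ?_ h3
      rwa [e.left_inv hq]
    have h4 : ∀ᶠ z in 𝓝 (e q), f (e.symm z) ∈ e1.source := by
      refine h2.eventually (e1.open_source.mem_nhds ?_)
      show f (e.symm (e q)) ∈ e1.source
      rwa [e.left_inv hq]
    filter_upwards [h4] with z hz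
    show _ = e2 (g (e1.symm (e1 (f (e.symm z)))))
    rw [e1.left_inv hz]
  have hg' : DifferentiableAt ℂ (fun y => e2 (g (e1.symm y)))
      ((fun z => e1 (f (e.symm z))) (e q)) := by
    show DifferentiableAt ℂ _ (e1 (f (e.symm (e q))))
    rw [hfq']; exact hg
  have hd : DifferentiableAt ℂ (fun z => (fun y => e2 (g (e1.symm y)))
      ((fun z => e1 (f (e.symm z))) z)) (e q) :=
    DifferentiableAt.comp (g := fun y => e2 (g (e1.symm y))) (f := fun z => e1 (f (e.symm z)))
      (e q) hg' hf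
  have hd2 : DifferentiableAt ℂ (fun z => e2 (g (f (e.symm z)))) (e q) :=
    hd.congr_of_eventuallyEq h1
  refine ⟨matrix_ext_mulVec fun u => ?_, hd2⟩
  rw [jacF_mulVec hd2, ← Matrix.mulVec_mulVec, jacF_mulVec hf, jacF_mulVec hg, h1.fderiv_eq]
  rw [show (fun z => (fun y => e2 (g (e1.symm y))) ((fun z => e1 (f (e.symm z))) z)) =
    (fun y => e2 (g (e1.symm y))) ∘ (fun z => e1 (f (e.symm z))) from rfl,
    fderiv_comp (e q) hg' hf]
  simp only [ContinuousLinearMap.comp_apply]
  rw [hfq']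

end jac

section form
variable {a b c : ℕ} {N N' X : Type*} [TopologicalSpace N] [TopologicalSpace N']
  [TopologicalSpace X] [ChartedSpace (Cm c) X] {w : FormM c X}

theorem map_conj_mul {p q r : Type*} [Fintype q] (A : Matrix p q ℂ) (B : Matrix q r ℂ) :
    (A * B).map (starRingEnd ℂ) = A.map (starRingEnd ℂ) * B.map (starRingEnd ℂ) := by
  ext i j
  simp only [Matrix.map_apply, Matrix.mul_apply, map_sum, map_mul]

theorem pullM_at {f : N → X} {e : Chart a N} {q : N} (hq : q ∈ e.source) :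
    pullM f w e (e q) = (jacF f e (chartAt (Cm c) (f q)) q).transpose *
      w (chartAt (Cm c) (f q)) (chartAt (Cm c) (f q) (f q)) *
      (jacF f e (chartAt (Cm c) (f q)) q).map (starRingEnd ℂ) := by
  unfold pullM
  rw [e.left_inv hq]

theorem pullM_congr {f g : N → X} {e : Chart a N} {q : N} (hq : q ∈ e.source)
    (h : f =ᶠ[𝓝 q] g) : pullM f w e (e q) = pullM g w e (e q) := by
  rw [pullM_at hq, pullM_at hq, h.eq_of_nhds, jacF_congr hq h]

/-- functoriality of the pull back of forms -/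
theorem pullM_comp {f : N → N'} {g : N' → X} {e : Chart a N} {e1 : Chart b N'}
    {q : N} (hq : q ∈ e.source) (hfq : f q ∈ e1.source) (hfc : ContinuousAt f q)
    (hf : DifferentiableAt ℂ (fun z => e1 (f (e.symm z))) (e q))
    (hg : DifferentiableAt ℂ (fun z => chartAt (Cm c) (g (f q)) (g (e1.symm z))) (e1 (f q))) :
    pullM (fun x => g (f x)) w e (e q) = (jacF f e e1 q).transpose *
      pullM g w e1 (e1 (f q)) * (jacF f e e1 q).map (starRingEnd ℂ) := by
  rw [pullM_at hq, pullM_at hfq, (jacF_comp hq hfq hfc hf hg).1, Matrix.transpose_mul,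
    map_conj_mul]
  simp only [Matrix.mul_assoc]

/-- the pull back can be computed in any chart -/
theorem pullM_eq [IsManifold 𝓘(ℂ, Cm c) ω X] (hw : IsForm w) {f : N → X} {e : Chart a N}
    {e1 : Chart c X} {q : N}
    (hq : q ∈ e.source) (h1 : At e1 (f q)) (hfc : ContinuousAt f q)
    (hf : DifferentiableAt ℂ (fun z => e1 (f (e.symm z))) (e q)) :
    pullM f w e (e q) = (jacF f e e1 q).transpose * w e1 (e1 (f q)) *
      (jacF f e e1 q).map (starRingEnd ℂ) := by
  have h2 : At (chartAt (Cm c) (f q)) (f q) := ⟨chart_mem_atlas _ _, mem_chart_source _ _⟩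
  have hid : DifferentiableAt ℂ (fun z => chartAt (Cm c) (f q) ((fun x => x) (e1.symm z)))
      (e1 (f q)) := transition_differentiableAt h1 h2
  rw [pullM_at hq, hw e1 _ (f q) h1 h2,
    (jacF_comp (g := fun x : X => x) hq h1.2 hfc hf hid).1, Matrix.transpose_mul, map_conj_mul]
  simp only [Matrix.mul_assoc]
  rfl

end form

section quad
variable {a b : ℕ}

theorem quad_eq' (M : Matrix (Fin a) (Fin a) ℂ) (ξ : Cm a) :
    quad M ξ = ξ ⬝ᵥ (M.mulVec fun i => cj (ξ i)) := by
  rw [quad_eq]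
  congr 1
  funext i
  simp [cj]

/-- `quad (Jᵀ M J̄) u = quad M (J u)` -/
theorem quad_pull (J : Matrix (Fin b) (Fin a) ℂ) (M : Matrix (Fin b) (Fin b) ℂ) (u : Cm a) :
    quad (J.transpose * M * J.map (starRingEnd ℂ)) u = quad M (J.mulVec u) := by
  rw [quad_eq', quad_eq', Matrix.mul_assoc, ← Matrix.mulVec_mulVec, ← Matrix.mulVec_mulVec,
    Matrix.dotProduct_mulVec, Matrix.vecMul_transpose]
  congr 2
  funext i
  simp only [Matrix.mulVec, dotProduct, Matrix.map_apply, cj, map_sum, map_mul]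

theorem quad_one (v : Cm a) : (quad (1 : Matrix (Fin a) (Fin a) ℂ) v).re = ∑ i, ‖v i‖ ^ 2 := by
  rw [quad_eq', Matrix.one_mulVec, dotProduct, Complex.re_sum]
  refine Finset.sum_congr rfl fun i _ => ?_
  simp only [cj]
  rw [Complex.mul_conj, Complex.ofReal_re, Complex.normSq_eq_norm_sq]

theorem norm_sq_le_quad_one (v : Cm a) : ‖v‖ ^ 2 ≤ (quad (1 : Matrix (Fin a) (Fin a) ℂ) v).re := by
  rw [quad_one]
  have h0 : 0 ≤ ∑ i, ‖v i‖ ^ 2 := Finset.sum_nonneg fun i _ => sq_nonneg _
  have h1 : ‖v‖ ≤ Real.sqrt (∑ i, ‖v i‖ ^ 2) := by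
    rw [pi_norm_le_iff_of_nonneg (Real.sqrt_nonneg _)]
    intro i
    refine Real.le_sqrt_of_sq_le ?_
    exact Finset.single_le_sum (f := fun i => ‖v i‖ ^ 2) (fun i _ => sq_nonneg _)
      (Finset.mem_univ i)
  calc ‖v‖ ^ 2 ≤ Real.sqrt (∑ i, ‖v i‖ ^ 2) ^ 2 := by gcongr
    _ = _ := Real.sq_sqrt h0

theorem quad_one_le (v : Cm a) : (quad (1 : Matrix (Fin a) (Fin a) ℂ) v).re ≤ a * ‖v‖ ^ 2 := by
  rw [quad_one]
  calc ∑ i, ‖v i‖ ^ 2 ≤ ∑ _i : Fin a, ‖v‖ ^ 2 := by
        refine Finset.sum_le_sum fun i _ => ?_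
        gcongr
        exact norm_le_pi_norm v i
    _ = a * ‖v‖ ^ 2 := by simp

theorem quad_add (M M' : Matrix (Fin a) (Fin a) ℂ) (v : Cm a) :
    quad (M + M') v = quad M v + quad M' v := by
  rw [quad_eq', quad_eq', quad_eq', Matrix.add_mulVec, dotProduct_add]

theorem quad_sum {ι : Type*} (s : Finset ι) (M : ι → Matrix (Fin a) (Fin a) ℂ) (v : Cm a) :
    quad (∑ i ∈ s, M i) v = ∑ i ∈ s, quad (M i) v := by
  classical
  induction s using Finset.induction_on with
  | empty => simp [quad]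
  | insert a s ha ih => rw [Finset.sum_insert ha, Finset.sum_insert ha, quad_add, ih]

end quad

section geo
variable {n : ℕ} {X : Type} [TopologicalSpace X] [ChartedSpace (Cm n) X]
  {w : FormM n X}

/-- local representations of holomorphic maps -/
theorem hol_chart {a b : ℕ} {N N' : Type*} [TopologicalSpace N] [TopologicalSpace N']
    [ChartedSpace (Cm a) N] [ChartedSpace (Cm b) N'] [IsManifold 𝓘(ℂ, Cm a) ω N]
    [IsManifold 𝓘(ℂ, Cm b) ω N'] {f : N → N'} {e : Chart a N} {e' : Chart b N'} {q : N}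
    (hf : ContMDiffAt 𝓘(ℂ, Cm a) 𝓘(ℂ, Cm b) ω f q) (he : At e q) (he' : At e' (f q)) :
    ContDiffAt ℂ ω (fun z => e' (f (e.symm z))) (e q) := by
  rw [← contMDiffAt_iff_contDiffAt]
  have h1 := chart_symm_contMDiffAt he.1 he.mem_target
  have h2 : ContMDiffAt 𝓘(ℂ, Cm a) 𝓘(ℂ, Cm b) ω (fun x => e' (f x)) q :=
    ContMDiffAt.comp q (g := e') (chart_contMDiffAt he') hf
  refine ContMDiffAt.comp (e q) (g := fun x => e' (f x)) ?_ h1
  rw [he.left_inv]
  exact h2

/-- holomorphic maps into `M` -/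
theorem hol_into (S : Split n X w) {k : ℕ} {f : Cm k → S.M} {z0 : Cm k}
    (hf : ContinuousAt f z0)
    (h : ∀ i, ContMDiffAt 𝓘(ℂ, Cm k) 𝓘(ℂ, Cm (S.d i)) ω (fun z => S.Φ (f z) i) z0)
    {e : Chart n S.M} (he : At e (f z0)) : ContDiffAt ℂ ω (fun z => e (f z)) z0 := by
  classical
  set m0 := f z0 with hm0
  let e' : (i : Fin 3) → Chart (S.d i) (S.Y i) := fun i => chartAt (Cm (S.d i)) (S.Φ m0 i)
  have he' : ∀ i, At (e' i) (S.Φ m0 i) := fun i => ⟨chart_mem_atlas _ _, mem_chart_source _ _⟩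
  let F : Cm n → (i : Fin 3) → Cm (S.d i) := fun y i => e' i (S.Φ (e.symm y) i)
  have hFi : ∀ i, ContDiffAt ℂ ω (fun y => F y i) (e m0) := fun i =>
    hol_chart (f := fun m => S.Φ m i) (S.Φ_hol i).contMDiffAt he (he' i)
  have hF : ContDiffAt ℂ ω F (e m0) := contDiffAt_pi.2 hFi
  have hFd : DifferentiableAt ℂ F (e m0) := hF.differentiableAt (by simp)
  have hinj : Function.Injective (fderiv ℂ F (e m0)) := by
    rw [injective_iff_map_eq_zero]
    intro u hu
    refine S.jac_inj e m0 e' he he' u fun i => ?_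
    rw [jacF_mulVec ((hFi i).differentiableAt (by simp))]
    have : fderiv ℂ (fun y => F y i) (e m0) u = fderiv ℂ F (e m0) u i := by
      have h2 : HasFDerivAt (fun z => F z i)
          ((ContinuousLinearMap.proj i).comp (fderiv ℂ F (e m0))) (e m0) :=
        (ContinuousLinearMap.proj (R := ℂ) (φ := fun i : Fin 3 => Cm (S.d i)) i).hasFDerivAt.comp
          (e m0) hFd.hasFDerivAt
      rw [h2.fderiv]
      rfl
    show fderiv ℂ (fun y => F y i) (e m0) u = 0
    rw [this, hu]
    rfl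
  have hdim : Module.finrank ℂ (Cm n) = Module.finrank ℂ ((i : Fin 3) → Cm (S.d i)) := by
    have h1 : Module.finrank ℂ (Cm n) = n := Module.finrank_fin_fun ℂ
    have h2 : Module.finrank ℂ ((i : Fin 3) → Cm (S.d i)) =
        ∑ i, Module.finrank ℂ (Cm (S.d i)) := Module.finrank_pi_fintype ℂ
    have h3 : ∀ i, Module.finrank ℂ (Cm (S.d i)) = S.d i := fun i => Module.finrank_fin_fun ℂ
    rw [h1, h2, Finset.sum_congr rfl fun i _ => h3 i]
    exact S.dsum.symm
  let A : Cm n ≃L[ℂ] ((i : Fin 3) → Cm (S.d i)) :=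
    (LinearEquiv.ofInjectiveOfFinrankEq (fderiv ℂ F (e m0) : Cm n →ₗ[ℂ] _) hinj
      hdim).toContinuousLinearEquiv
  have hA : (A : Cm n →L[ℂ] ((i : Fin 3) → Cm (S.d i))) = fderiv ℂ F (e m0) := by
    ext u : 1
    rfl
  have hFA : HasFDerivAt F (A : Cm n →L[ℂ] ((i : Fin 3) → Cm (S.d i))) (e m0) := by
    rw [hA]; exact hFd.hasFDerivAt
  have h1ω : (ω : WithTop ℕ∞) ≠ 0 := by simp
  have hinv := hF.to_localInverse hFA h1ω
  have hleft : ∀ᶠ y in 𝓝 (e m0), hF.localInverse hFA h1ω (F y) = y := by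
    have h2 : (hF.toOpenPartialHomeomorph F hFA h1ω).source ∈ 𝓝 (e m0) :=
      (hF.toOpenPartialHomeomorph F hFA h1ω).open_source.mem_nhds
        (hF.mem_toOpenPartialHomeomorph_source hFA h1ω)
    filter_upwards [h2] with y hy
    exact (hF.toOpenPartialHomeomorph F hFA h1ω).left_inv hy
  have hcont : ContinuousAt (fun z => e (f z)) z0 :=
    ContinuousAt.comp (f := f) (g := e) (e.continuousAt he.2) hf
  have hsrc : ∀ᶠ z in 𝓝 z0, f z ∈ e.source := hf.eventually (e.open_source.mem_nhds he.2)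
  have hG : ContDiffAt ℂ ω (fun z => (fun i => e' i (S.Φ (f z) i) : (i : Fin 3) → Cm (S.d i))) z0 := by
    refine contDiffAt_pi.2 fun i => ?_
    rw [← contMDiffAt_iff_contDiffAt]
    exact ContMDiffAt.comp z0 (g := e' i) (chart_contMDiffAt (he' i)) (h i)
  have hev : (fun z => e (f z)) =ᶠ[𝓝 z0] fun z => hF.localInverse hFA h1ω
      (fun i => e' i (S.Φ (f z) i)) := by
    filter_upwards [hcont.eventually hleft, hsrc] with z hz hz'
    rw [← hz]
    congr 1
    funext i
    show e' i (S.Φ (e.symm (e (f z))) i) = _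
    rw [e.left_inv hz']
  refine ContDiffAt.congr_of_eventuallyEq ?_ hev
  refine ContDiffAt.comp z0 (g := hF.localInverse hFA h1ω) ?_ hG
  have : (fun i => e' i (S.Φ (f z0) i)) = F (e m0) := by
    funext i
    show _ = e' i (S.Φ (e.symm (e m0)) i)
    rw [he.left_inv]
  rw [this]
  exact hinv

end geo

end Vale.Agent.P299.H726
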